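import Crest.Agent.N336.P.VW.MI
import Crest.Agent.N336.TB

/-!
# Row 336, cone decoupling: Lipschitz bounds, point counts and charts of a cone (helper49)
-/

set_option autoImplicit false

namespace Crest.Agent.N336.P.VW

open Crest.MathPhysics.LatticeSpin

theorem sd_le {z w : ℤ × ℤ} {r : ℤ} :
    sd z w ≤ r ↔ -r ≤ z.1 - w.1 ∧ z.1 - w.1 ≤ r ∧ -r ≤ z.2 - w.2 ∧ z.2 - w.2 ≤ r := by
  unfold sd
  rw [max_le_iff, abs_le, abs_le]
  tauto

theorem sd_symm (z w : ℤ × ℤ) : sd z w = sd w z := by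
  unfold sd
  rw [abs_sub_comm z.1, abs_sub_comm z.2]

theorem sd_tri (x y z : ℤ × ℤ) : sd x z ≤ sd x y + sd y z := by
  have h1 := sd_le.1 (le_refl (sd x y))
  have h2 := sd_le.1 (le_refl (sd y z))
  rw [sd_le]
  omega

theorem sd_king {z w : ℤ × ℤ} (h1 : |z.1 - w.1| ≤ 1) (h2 : |z.2 - w.2| ≤ 1) : sd z w ≤ 1 :=
  max_le h1 h2

/-- Graph distance dominates the sup-distance of the positions. -/
theorem sd_le_of_edist {q R : ℕ} {J Δ : ℝ} {Λ : Type} [Fintype Λ] [DecidableEq Λ]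
    (s : Sys q R J Δ Λ) {x y : Λ} {w : ℕ} (h : s.G.edist x y ≤ w) :
    sd (s.pos x) (s.pos y) ≤ w := by
  have hne : s.G.edist x y ≠ ⊤ := ne_top_of_le_ne_top (ENat.natCast_ne_top w) h
  obtain ⟨p, hp⟩ := SimpleGraph.exists_walk_of_edist_ne_top hne
  rw [← hp] at h
  have hl : p.length ≤ w := by exact_mod_cast h
  refine le_trans ?_ (Int.ofNat_le.2 hl)
  clear hp h hl hne
  induction p with
  | nil => simp [sd]
  | @cons a b c h p ih =>
    have e := s.adj _ _ h
    have h1 := abs_nonneg ((s.pos a).1 - (s.pos b).1)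
    have h2 := abs_nonneg ((s.pos a).2 - (s.pos b).2)
    have h3 : sd (s.pos a) (s.pos b) ≤ 1 := sd_king (by omega) (by omega)
    have h4 := sd_tri (s.pos a) (s.pos b) (s.pos c)
    simp only [SimpleGraph.Walk.length_cons]
    push_cast
    omega

variable {K ℓ : ℕ} (cn : Cone K ℓ)

/-- The cut-off distance to the apexes. -/
def g (z : ℤ × ℤ) : ℤ := max (cn.gam z) ℓ

/-- The relative height. -/
def u (z : ℤ × ℤ) : ℤ := cn.f z - g cn z

theorem gam_lip (z w : ℤ × ℤ) : cn.gam z ≤ cn.gam w + sd z w := by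
  obtain ⟨p, hp, e⟩ := cn.gam_eq w
  have h1 := cn.gam_le z p hp
  have h2 := sd_tri z w p
  omega

theorem g_lip {z w : ℤ × ℤ} {n : ℕ} (h : sd z w ≤ n) : g cn z ≤ g cn w + n := by
  have := gam_lip cn z w
  unfold g
  omega

theorem f_lip (n : ℕ) : ∀ z w : ℤ × ℤ, sd z w ≤ n → cn.f z ≤ cn.f w + K * n := by
  induction n with
  | zero =>
    intro z w h
    rw [sd_le] at h
    have : z = w := Prod.ext (by omega) (by omega)
    simp [this]
  | succ n ih =>
    intro z w h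
    rw [sd_le] at h
    push_cast at h ⊢
    let z' : ℤ × ℤ := (if z.1 < w.1 then z.1 + 1 else if w.1 < z.1 then z.1 - 1 else z.1,
      if z.2 < w.2 then z.2 + 1 else if w.2 < z.2 then z.2 - 1 else z.2)
    have h1 := cn.lip z z' (by rw [abs_le]; simp only [z']; split_ifs <;> omega)
      (by rw [abs_le]; simp only [z']; split_ifs <;> omega)
    have h2 := ih z' w (by rw [sd_le]; simp only [z']; split_ifs <;> omega)
    linarith

theorem u_lip {z w : ℤ × ℤ} {n : ℕ} (h : sd z w ≤ n) : u cn z ≤ u cn w + (K + 1) * n := by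
  have h1 := f_lip cn n z w h
  have h2 := g_lip cn (z := w) (w := z) (n := n) (by rwa [sd_symm])
  unfold u
  linarith

theorem card_ball (R : ℕ) (T : Finset (ℤ × ℤ)) (hT : ∀ z ∈ T, cn.gam z ≤ R) :
    T.card ≤ K * (2 * R + 1) ^ 2 := by
  have h : T ⊆ cn.Z.biUnion fun p =>
      Finset.Icc (p.1 - R) (p.1 + R) ×ˢ Finset.Icc (p.2 - R) (p.2 + R) := by
    intro z hz
    obtain ⟨p, hp, e⟩ := cn.gam_eq z
    have h1 := sd_le.1 (e ▸ hT z hz)
    simp only [Finset.mem_biUnion, Finset.mem_product, Finset.mem_Icc]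
    exact ⟨p, hp, by omega⟩
  refine (Finset.card_le_card h).trans ((Finset.card_biUnion_le_card_mul _ _
    ((2 * R + 1) ^ 2) fun p _ => ?_).trans (Nat.mul_le_mul_right _ cn.card))
  rw [Finset.card_product, Int.card_Icc, Int.card_Icc]
  have e1 : (p.1 + R + 1 - (p.1 - R)).toNat = 2 * R + 1 := by omega
  have e2 : (p.2 + R + 1 - (p.2 - R)).toNat = 2 * R + 1 := by omega
  rw [e1, e2, pow_two]

theorem card_sphere (R : ℕ) (v : ℤ) (T : Finset (ℤ × ℤ))
    (hT : ∀ z ∈ T, cn.gam z ≤ R ∧ cn.gam z = v) : T.card ≤ K * (4 * (2 * R + 1)) := by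
  have h : T ⊆ cn.Z.biUnion fun p =>
      (({p.1 - v, p.1 + v} : Finset ℤ) ×ˢ Finset.Icc (p.2 - R) (p.2 + R)) ∪
        (Finset.Icc (p.1 - R) (p.1 + R) ×ˢ ({p.2 - v, p.2 + v} : Finset ℤ)) := by
    intro z hz
    obtain ⟨p, hp, e⟩ := cn.gam_eq z
    have h1 := sd_le.1 (e ▸ (hT z hz).1)
    have h2 := sd_le.1 (e ▸ (hT z hz).2.le)
    have h3 : ¬ sd z p ≤ v - 1 := by have := (hT z hz).2; omega
    rw [sd_le] at h3
    simp only [Finset.mem_biUnion, Finset.mem_union, Finset.mem_product, Finset.mem_Icc,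
      Finset.mem_insert, Finset.mem_singleton]
    exact ⟨p, hp, by omega⟩
  refine (Finset.card_le_card h).trans ((Finset.card_biUnion_le_card_mul _ _
    (4 * (2 * R + 1)) fun p _ => ?_).trans (Nat.mul_le_mul_right _ cn.card))
  refine (Finset.card_union_le _ _).trans ?_
  rw [Finset.card_product, Finset.card_product, Int.card_Icc, Int.card_Icc]
  have e1 : (p.1 + R + 1 - (p.1 - R)).toNat = 2 * R + 1 := by omega
  have e2 : (p.2 + R + 1 - (p.2 - R)).toNat = 2 * R + 1 := by omega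
  have e3 : ({p.1 - v, p.1 + v} : Finset ℤ).card ≤ 2 := Finset.card_le_two
  have e4 : ({p.2 - v, p.2 + v} : Finset ℤ).card ≤ 2 := Finset.card_le_two
  rw [e1, e2]
  nlinarith

theorem card_window (R W : ℕ) (a : ℤ) (T : Finset (ℤ × ℤ))
    (hT : ∀ z ∈ T, cn.gam z ≤ R ∧ 0 < cn.f z ∧ a ≤ u cn z ∧ u cn z < a + W) :
    T.card ≤ W * (K * (R + 1)) := by
  have h : T ⊆ (Finset.Ico a (a + W)).biUnion fun k => T.filter fun z => u cn z = k := by
    intro z hz
    simp only [Finset.mem_biUnion, Finset.mem_Ico, Finset.mem_filter]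
    exact ⟨u cn z, (hT z hz).2.2, hz, rfl⟩
  refine (Finset.card_le_card h).trans ((Finset.card_biUnion_le_card_mul _ _
    (K * (R + 1)) fun k _ => ?_).trans (by simp))
  refine cn.lev R k _ fun z hz => ?_
  obtain ⟨h1, h2⟩ := Finset.mem_filter.1 hz
  exact ⟨(hT z h1).1, (hT z h1).2.1, h2⟩

/-- The level function of the charts. -/
def psi (lo hi thr : ℤ) (z : ℤ × ℤ) : ℤ :=
  max (max (cn.gam z - hi) (lo - g cn z)) ((thr - u cn z + K) / (K + 1))

theorem psi_le {lo hi thr k : ℤ} {z : ℤ × ℤ} : psi cn lo hi thr z ≤ k ↔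
    cn.gam z ≤ hi + k ∧ lo - k ≤ g cn z ∧ thr - (K + 1) * k ≤ u cn z := by
  unfold psi
  have h : (thr - u cn z + K) / (K + 1) ≤ k ↔ thr - (K + 1) * k ≤ u cn z := by
    rw [← Int.lt_add_one_iff, Int.ediv_lt_iff_lt_mul (by omega)]
    constructor <;> intro h <;> nlinarith
  rw [max_le_iff, max_le_iff, h]
  omega

/-- The chart of the region `lo ≤ g`, `gam ≤ hi`, `thr ≤ u`. -/
def chart {q R : ℕ} {J Δ : ℝ} {Λ : Type} [Fintype Λ] [DecidableEq Λ] (s : Sys q R J Δ Λ)
    (lo thr : ℤ) (hi m x : ℕ) (hl : lo < ℓ ∨ (ℓ : ℤ) < lo - m)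
    (hpos : 0 < lo - m + thr - (K + 1) * m) (hx : hi + m + 1 ≤ x) :
    Chart s (20 * (K + 1) ^ 2 * x) m where
  U := Finset.univ
  ψ := psi cn lo hi thr
  lip z w h1 h2 := by
    have h := sd_king h1 h2
    have a1 := (psi_le cn).1 (le_refl (psi cn lo hi thr w))
    have a2 := gam_lip cn z w
    have a3 := g_lip cn (z := w) (w := z) (n := 1) (by rwa [sd_symm])
    have a4 := u_lip cn (z := w) (w := z) (n := 1) (by rwa [sd_symm])
    rw [psi_le]
    push_cast at a3 a4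
    refine ⟨by omega, by omega, by linarith⟩
  lev k h0 hk T hT := by
    have hkm : ((K : ℤ) + 1) * k ≤ (K + 1) * m := by gcongr
    have hs : T ⊆ (T.filter (fun z => cn.gam z = hi + k) ∪ T.filter (fun z => cn.gam z = lo - k)) ∪
        T.filter fun z => thr - (K + 1) * k ≤ u cn z ∧ u cn z < thr - (K + 1) * k + (K + 1 : ℕ) := by
      intro z hz
      have a1 := (psi_le cn).1 (hT z hz).le
      have a2 : ¬ psi cn lo hi thr z ≤ k - 1 := by have := hT z hz; omega
      rw [psi_le, mul_sub, mul_one] at a2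
      simp only [Finset.mem_union, Finset.mem_filter, hz, true_and]
      unfold g at a1 a2
      push_cast
      omega
    have hb : ∀ z ∈ T, cn.gam z ≤ (hi + m : ℕ) ∧ 0 < cn.f z := fun z hz => by
      have a1 := (psi_le cn).1 (hT z hz).le
      unfold u at a1
      push_cast
      omega
    have b1 := card_sphere cn (hi + m) (hi + k) (T.filter fun z => cn.gam z = hi + k)
      fun z hz => ⟨(hb z (Finset.mem_filter.1 hz).1).1, (Finset.mem_filter.1 hz).2⟩
    have b2 := card_sphere cn (hi + m) (lo - k) (T.filter fun z => cn.gam z = lo - k)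
      fun z hz => ⟨(hb z (Finset.mem_filter.1 hz).1).1, (Finset.mem_filter.1 hz).2⟩
    have b3 := card_window cn (hi + m) (K + 1) (thr - (K + 1) * k) (T.filter fun z =>
        thr - (K + 1) * k ≤ u cn z ∧ u cn z < thr - (K + 1) * k + (K + 1 : ℕ))
      fun z hz => ⟨(hb z (Finset.mem_filter.1 hz).1).1, (hb z (Finset.mem_filter.1 hz).1).2,
        (Finset.mem_filter.1 hz).2⟩
    refine (Finset.card_le_card hs).trans ((Finset.card_union_le _ _).trans ?_)
    refine (Nat.add_le_add ((Finset.card_union_le _ _).trans (Nat.add_le_add b1 b2)) b3).trans ?_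
    have c1 : K * (4 * (2 * (hi + m) + 1)) ≤ (K + 1) ^ 2 * (8 * x) :=
      Nat.mul_le_mul (by nlinarith) (by omega)
    have c2 : (K + 1) * (K * (hi + m + 1)) ≤ (K + 1) * ((K + 1) * x) := by gcongr; omega
    nlinarith
  tot T hT := by
    refine (card_ball cn (hi + m) T fun z hz => ?_).trans ?_
    · have a1 := (psi_le cn).1 (hT z hz)
      push_cast
      omega
    · have c1 : (2 * (hi + m) + 1) ^ 2 ≤ (2 * x) ^ 2 := by gcongr; omega
      have c2 : K * 4 ≤ (20 * (K + 1) ^ 2) ^ 2 := by nlinarith [Nat.zero_le (K ^ 2), Nat.zero_le (K ^ 3), Nat.zero_le (K ^ 4)]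
      calc _ ≤ K * (2 * x) ^ 2 := by gcongr
        _ = K * 4 * x ^ 2 := by ring
        _ ≤ (20 * (K + 1) ^ 2) ^ 2 * x ^ 2 := by gcongr
        _ = _ := by ring
  closed x y _ _ h := absurd (Finset.mem_univ y) h

theorem mem_chart {q R : ℕ} {J Δ : ℝ} {Λ : Type} [Fintype Λ] [DecidableEq Λ] {s : Sys q R J Δ Λ}
    {lo thr : ℤ} {hi m x : ℕ} {hl : lo < ℓ ∨ (ℓ : ℤ) < lo - m}
    {hpos : 0 < lo - m + thr - (K + 1) * m} {hx : hi + m + 1 ≤ x} {k : ℤ} {a : Λ} :
    a ∈ (chart cn s lo thr hi m x hl hpos hx).P k ↔ cn.gam (s.pos a) ≤ hi + k ∧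
      lo - k ≤ g cn (s.pos a) ∧ thr - (K + 1) * k ≤ u cn (s.pos a) := by
  rw [Chart.mem_P, ← psi_le]
  simp [chart]

end Crest.Agent.N336.P.VW
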