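import Crest.Agent.N336.P.Pt

/-!
# Row 336, cone decoupling: entropy algebra (helper49)

Monotonicity of the mutual information, subadditivity over finite unions and the two-family
inequality, from symmetry, positivity and submodularity of the entropy.
-/

set_option autoImplicit false

namespace Crest.Agent.N336.P.VW

open Crest.MathPhysics.LatticeSpin

variable {q : ℕ} {Λ : Type} [Fintype Λ] [DecidableEq Λ] {Ω : Vec Λ q}

/-- The three properties of the entropy of a pure state that are used. -/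
structure Ent (Ω : Vec Λ q) : Prop where
  sym : ∀ A : Finset Λ, S Ω Aᶜ = S Ω A
  nn : ∀ A : Finset Λ, 0 ≤ S Ω A
  emp : S Ω ∅ = 0
  sub : ∀ A B : Finset Λ, S Ω (A ∪ B) + S Ω (A ∩ B) ≤ S Ω A + S Ω B

theorem Ent.of (hE : EntStmt) (hΩ : ‖Ω‖ = 1) : Ent Ω := by
  obtain ⟨E1, E2, E3, -⟩ := hE q Λ Ω hΩ
  refine ⟨E1, fun A => (E2 A).1, le_antisymm ?_ (E2 ∅).1, E3⟩
  simpa using (E2 ∅).2

theorem Ent.union_le (e : Ent Ω) (A B : Finset Λ) : S Ω (A ∪ B) ≤ S Ω A + S Ω B := by
  have := e.sub A B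
  have := e.nn (A ∩ B)
  linarith

theorem Ent.biUnion_le (e : Ent Ω) {ι : Type} [DecidableEq ι] (I : Finset ι) (T : ι → Finset Λ)
    (b : ℝ) (hb : ∀ i ∈ I, S Ω (T i) ≤ b) : S Ω (I.biUnion T) ≤ I.card * b := by
  induction I using Finset.induction_on with
  | empty => simp [e.emp]
  | insert i I hi ih =>
    rw [Finset.biUnion_insert, Finset.card_insert_of_notMem hi]
    have h1 := e.union_le (T i) (I.biUnion T)
    have h2 := ih fun j hj => hb j (Finset.mem_insert_of_mem hj)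
    have h3 := hb i (Finset.mem_insert_self _ _)
    push_cast
    linarith

theorem MI_comm (A B : Finset Λ) : MI Ω A B = MI Ω B A := by
  unfold MI
  rw [Finset.union_comm]
  ring

theorem Ent.MI_empty (e : Ent Ω) (F : Finset Λ) : MI Ω ∅ F = 0 := by
  unfold MI
  rw [e.emp, Finset.empty_union]
  ring

theorem Ent.MI_mono_left (e : Ent Ω) {A A' F : Finset Λ} (h : A ⊆ A') (hd : Disjoint A' F) :
    MI Ω A F ≤ MI Ω A' F := by
  unfold MI
  have h1 := e.sub A' (A ∪ F)
  have e1 : A' ∪ (A ∪ F) = A' ∪ F := by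
    rw [← Finset.union_assoc, Finset.union_eq_left.2 h]
  have e2 : A' ∩ (A ∪ F) = A := by
    rw [Finset.inter_union_distrib_left, Finset.inter_eq_right.2 h,
      Finset.disjoint_iff_inter_eq_empty.1 hd, Finset.union_empty]
  rw [e1, e2] at h1
  linarith

theorem Ent.MI_mono (e : Ent Ω) {A A' F F' : Finset Λ} (h : A ⊆ A') (h' : F ⊆ F')
    (hd : Disjoint A' F') : MI Ω A F ≤ MI Ω A' F' := by
  have h1 := e.MI_mono_left h (hd.mono_right h')
  have h2 := e.MI_mono_left h' hd.symm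
  rw [MI_comm F A', MI_comm F' A'] at h2
  linarith

/-- Two-family inequality: `Y` is the complement of everything else. -/
theorem Ent.two_family (e : Ent Ω) {F A X B D Y : Finset Λ}
    (h1 : (F ∪ Y)ᶜ = A ∪ X ∪ B ∪ D) (h2 : (A ∪ X ∪ B ∪ D ∪ F)ᶜ = Y)
    (h3 : (B ∪ (F ∪ Y))ᶜ = A ∪ X ∪ D) (h4 : (X ∪ (F ∪ A))ᶜ = B ∪ D ∪ Y) :
    MI Ω (A ∪ X ∪ B ∪ D) F ≤ MI Ω A F + MI Ω X (F ∪ A) + MI Ω B (F ∪ Y) + 2 * S Ω D := by
  unfold MI
  have a1 := e.sym (F ∪ Y)
  have a2 := e.sym (A ∪ X ∪ B ∪ D ∪ F)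
  have a3 := e.sym (B ∪ (F ∪ Y))
  have a4 := e.sym (X ∪ (F ∪ A))
  rw [h1] at a1
  rw [h2] at a2
  rw [h3] at a3
  rw [h4] at a4
  have b1 := e.union_le (A ∪ X) D
  have b2 := e.union_le A X
  have b3 := e.union_le (B ∪ D) Y
  have b4 := e.union_le B D
  have b5 : S Ω (A ∪ F) = S Ω (F ∪ A) := by rw [Finset.union_comm]
  linarith

/-- The form that is used: `A' ⊆ A ∪ X ∪ B ∪ D`, with `A, X, B` pairwise disjoint subsets of `A'`,
and `F` disjoint from `A'` and from `D`. -/
theorem Ent.two_family' (e : Ent Ω) {F A' A X B D : Finset Λ} (hc : A' ⊆ A ∪ X ∪ B ∪ D)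
    (hA : A ⊆ A') (hX : X ⊆ A') (hB : B ⊆ A') (hAX : Disjoint A X) (hAB : Disjoint A B)
    (hXB : Disjoint X B) (hF : Disjoint A' F) (hD : Disjoint D F) :
    MI Ω A' F ≤ MI Ω A F + MI Ω X (F ∪ A) + MI Ω B A'ᶜ + 2 * S Ω D := by
  have m := fun {P Q : Finset Λ} (h : Disjoint P Q) (x : Λ) =>
    (Finset.disjoint_left.1 h : ∀ ⦃a⦄, a ∈ P → a ∉ Q) (a := x)
  set Y : Finset Λ := (A' ∪ D ∪ F)ᶜ with hY
  have key := e.two_family (F := F) (A := A \ D) (X := X \ D) (B := B \ D) (D := D) (Y := Y)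
    ?_ ?_ ?_ ?_
  · have k1 : MI Ω A' F ≤ MI Ω (A \ D ∪ X \ D ∪ B \ D ∪ D) F := by
      refine e.MI_mono_left (fun x hx => ?_) (Finset.disjoint_left.2 fun x hx => ?_)
      · have := hc hx
        simp only [Finset.mem_union, Finset.mem_sdiff] at this ⊢
        grind
      · have := m hF x
        have := m hD x
        have := @hA x
        have := @hX x
        have := @hB x
        simp only [Finset.mem_union, Finset.mem_sdiff] at hx
        grind
    have k2 : MI Ω (A \ D) F ≤ MI Ω A F :=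
      e.MI_mono_left Finset.sdiff_subset (hF.mono_left hA)
    have k3 : MI Ω (X \ D) (F ∪ A \ D) ≤ MI Ω X (F ∪ A) :=
      e.MI_mono Finset.sdiff_subset (Finset.union_subset_union_right Finset.sdiff_subset)
        (Finset.disjoint_union_right.2 ⟨hF.mono_left hX, hAX.symm⟩)
    have k4 : MI Ω (B \ D) (F ∪ Y) ≤ MI Ω B A'ᶜ := by
      refine e.MI_mono Finset.sdiff_subset (fun x hx => ?_)
        (Finset.disjoint_left.2 fun x hx hx' => Finset.mem_compl.1 hx' (hB hx))
      have := m hF x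
      simp only [hY, Finset.mem_union, Finset.mem_compl] at hx ⊢
      grind
    linarith
  all_goals
    ext x
    have := m hF x
    have := m hD x
    have := m hAX x
    have := m hAB x
    have := m hXB x
    have := @hA x
    have := @hX x
    have := @hB x
    have := @hc x
    simp only [hY, Finset.mem_union, Finset.mem_compl, Finset.mem_sdiff] at *
    grind

end Crest.Agent.N336.P.VW
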