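import Crest.Agent.N336.P.VW.Step

/-!
# Row 336: cone decoupling `vw : EntStmt → CoreStmt → AmpStmt → AreaStmt → VWStmt` (helper49)

Downward induction over the dyadic scales `2 ^ j ℓ`.
-/

set_option autoImplicit false

namespace Crest.Agent.N336.P.VW

open Crest.MathPhysics.LatticeSpin Filter

theorem exch_le {Λ : Type} [Fintype Λ] [DecidableEq Λ] {q : ℕ} {Ω : Vec Λ q} {A F : Finset Λ}
    {ε ε' : ℝ} (h : Exch Ω A F ε) (hε : ε ≤ ε') : Exch Ω A F ε' := by
  obtain ⟨U, h1, h2, h3⟩ := h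
  exact ⟨U, h1, h2, h3.trans hε⟩

/-- The multiscale induction, with all constants given. -/
theorem multi {q R : ℕ} {J Δ : ℝ} {Λ : Type} [Fintype Λ] [DecidableEq Λ] (s : Sys q R J Δ Λ)
    {K ℓ : ℕ} (cn : Cone K ℓ) (e : Ent s.Ω) (N μ : ℕ) (C₀ CA ca ε : ℝ) (hCA : 0 ≤ CA)
    (hN1 : 1 ≤ N) (hμ : 1 ≤ μ) (hℓ : 16 * (K + 1) * N * μ ≤ ℓ)
    (harea : ∀ A, S s.Ω A ≤ CA * s.bd A)
    (hcore : ∀ k : ℕ, 1 ≤ k → ∀ c : Chart s (20 * (K + 1) ^ 2 * (12 * (2 * (k * ℓ)))) (k * μ),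
      MI s.Ω (c.P 0) (c.P (k * μ : ℕ))ᶜ ≤ C₀ * (k * μ : ℕ))
    (hN : 1 + 2 * C₀ + 8 * ((12 * (K + 1) * K : ℕ) * CA) ≤ ca / 2 * N)
    (hamp : ∀ (A F A' F' : Finset Λ) (w : ℕ), N * μ ≤ w → Disjoint A' F' →
      (∀ x ∈ A, ∀ y, s.G.edist x y ≤ w → y ∈ A') → (∀ x ∈ F, ∀ y, s.G.edist x y ≤ w → y ∈ F') →
      MI s.Ω A' F' ≤ ca / 2 * w → Exch s.Ω A F ε)
    (hent : ∀ A F : Finset Λ, Disjoint A F → Exch s.Ω A F ε → MI s.Ω A F ≤ 1) :
    Exch s.Ω (cn.A s.pos) (cn.F s.pos) ε := by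
  have one : ∀ k : ℕ, k = 1 ∨ 2 ≤ k →
      MI s.Ω (RA cn s.pos (2 * k * ℓ) ((K + 1) * (2 * k * (N * μ))))
        (RF cn s.pos ((K + 1) * (2 * k * (N * μ)))) ≤ 1 →
      ∀ A F : Finset Λ, A ⊆ RA cn s.pos (k * ℓ) ((K + 1) * (k * (N * μ))) →
        F ⊆ RF cn s.pos ((K + 1) * (k * (N * μ))) → Exch s.Ω A F ε := by
    intro k hk h A F hA hF
    have hk1 : 1 ≤ k := by omega
    set m := k * μ with hm
    set w := k * (N * μ) with hw
    set T := (K + 1) * w with hT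
    set y := k * ℓ with hy
    have e1 : 2 * k * ℓ = 2 * y := by rw [hy]; ring
    have e2 : (K + 1) * (2 * k * (N * μ)) = 2 * T := by rw [hT, hw]; ring
    rw [e1, e2] at h
    have hm1 : 1 ≤ m := Nat.mul_pos hk1 hμ
    have hmw : m ≤ w := Nat.mul_le_mul_left k (Nat.le_mul_of_pos_left μ hN1)
    have hwT : w ≤ T := Nat.le_mul_of_pos_left w (Nat.succ_pos K)
    have hTy : 16 * T ≤ y := by
      calc 16 * T = k * (16 * (K + 1) * N * μ) := by rw [hT, hw]; ring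
        _ ≤ k * ℓ := Nat.mul_le_mul_left k hℓ
    have hKm : (K + 2) * m ≤ 2 * T := by
      calc (K + 2) * m ≤ (2 * (K + 1)) * w := Nat.mul_le_mul (by omega) hmw
        _ = 2 * T := by rw [hT]; ring
    have hℓy : ℓ = y ∨ 2 * ℓ ≤ y := by
      rcases hk with rfl | hk
      · exact Or.inl (by simp [hy])
      · exact Or.inr (Nat.mul_le_mul_right ℓ hk)
    have st := step cn s e m (2 * T) (y - w) (2 * y) _ CA hCA harea (hcore k hk1) hm1
      (by omega) (by omega) (by omega) (by omega)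
    have zT : (T : ℤ) = (K + 1) * w := by rw [hT]; push_cast; ring
    refine hamp A F (RA cn s.pos (y - w) (2 * T)) (RF cn s.pos (2 * T)) w
      (Nat.le_mul_of_pos_left _ hk1) (disj_RA cn _ (by omega)) (fun x hx z hz => ?_)
      (fun x hx z hz => ?_) (st.trans ?_)
    · have h1 := (mem_RA cn).1 (hA hx)
      have h2 := u_lip cn (sd_le_of_edist s hz)
      have h3 := g_lip cn (sd_le_of_edist s hz)
      rw [mem_RA]
      omega
    · have h1 := (mem_RF cn).1 (hF hx)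
      have h2 := f_lip cn w (s.pos z) (s.pos x) (by rw [sd_symm]; exact sd_le_of_edist s hz)
      have h3 : (K : ℤ) * w + w = T := by rw [zT]; ring
      rw [mem_RF]
      omega
    · have h1 : (1 : ℝ) ≤ m := by exact_mod_cast hm1
      have h2 : (w : ℝ) = N * m := by rw [hw, hm]; push_cast; ring
      have h3 := mul_le_mul_of_nonneg_right hN (zero_le_one.trans h1)
      rw [h2, ← hm]
      push_cast at h3 ⊢
      linarith
  let Q : ℕ → Prop := fun j => MI s.Ω (RA cn s.pos (2 ^ j * ℓ) ((K + 1) * (2 ^ j * (N * μ))))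
    (RF cn s.pos ((K + 1) * (2 ^ j * (N * μ)))) ≤ 1
  have hℓ1 : 1 ≤ ℓ := le_trans (Nat.succ_le_of_lt (by positivity)) hℓ
  have down : ∀ j, Q (j + 1) → Q j := fun j h => by
    have hk : 2 ^ j = 1 ∨ 2 ≤ 2 ^ j := by have := Nat.one_le_two_pow (n := j); omega
    refine hent _ _ (disj_RA cn _ ?_) (one (2 ^ j) hk (by rw [← pow_succ']; exact h) _ _
      subset_rfl subset_rfl)
    calc 2 * ((K + 1) * (2 ^ j * (N * μ))) = 2 ^ j * (2 * (K + 1) * N * μ) := by ring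
      _ < 2 ^ j * (16 * (K + 1) * N * μ) := by gcongr; norm_num
      _ ≤ 2 ^ j * ℓ := Nat.mul_le_mul_left _ hℓ
  have all : ∀ d j, Q (j + d) → Q j := fun d => by
    induction d with
    | zero => exact fun j h => h
    | succ d ih => exact fun j h => ih j (down _ h)
  obtain ⟨M, hM⟩ := Finite.exists_le fun a => (g cn (s.pos a)).toNat
  have base : Q (1 + M) := by
    have h : RA cn s.pos (2 ^ (1 + M) * ℓ) ((K + 1) * (2 ^ (1 + M) * (N * μ))) = ∅ := by
      refine Finset.eq_empty_of_forall_notMem fun a ha => ?_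
      have h1 := ((mem_RA cn).1 ha).2
      have h2 := hM a
      have h3 : 1 + M < 2 ^ (1 + M) := Nat.lt_two_pow_self
      have h4 : 2 ^ (1 + M) ≤ 2 ^ (1 + M) * ℓ := Nat.le_mul_of_pos_right _ hℓ1
      omega
    simp only [Q, h, e.MI_empty, zero_le_one]
  refine one 1 (Or.inl rfl) (all M 1 base) _ _ (fun a ha => ?_) (fun a ha => ?_)
  · have h1 := (Finset.mem_filter.1 ha).2
    rw [mem_RA]
    unfold u g
    omega
  · have h1 := (Finset.mem_filter.1 ha).2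
    rw [mem_RF]
    omega

end Crest.Agent.N336.P.VW

namespace Crest.Agent.N336.P

open Crest.MathPhysics.LatticeSpin Filter VW

/-- Cone decoupling. -/
theorem vw (hE : EntStmt) (hC : CoreStmt) (hA : AmpStmt) (hAr : AreaStmt) : VWStmt := by
  intro q R J Δ K hq hJ hΔ
  obtain ⟨γ, C₀, hγ, hγ4, hC₀, hC⟩ := hC q R J Δ hq hJ hΔ
  obtain ⟨ca, Ca, hca, hCa, hA⟩ := hA q R J Δ hq hJ hΔ
  obtain ⟨CA, hCA, hAr⟩ := hAr q R J Δ hq hJ hΔ
  have hlq : 0 ≤ Real.log q := Real.log_nonneg (by exact_mod_cast hq)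
  obtain ⟨N, hN⟩ := exists_nat_ge ((1 + 2 * C₀ + 8 * ((12 * (K + 1) * K : ℕ) * CA)) / (ca / 2))
  rw [div_le_iff₀ (by positivity), mul_comm (N : ℝ)] at hN
  have hN1 : 1 ≤ N := by
    rcases Nat.eq_zero_or_pos N with rfl | h
    · have : (0 : ℝ) ≤ (12 * (K + 1) * K : ℕ) * CA := by positivity
      simp only [Nat.cast_zero, mul_zero] at hN
      linarith
    · exact h
  set B : ℕ := 16 * (K + 1) * N with hB
  have hB0 : 0 < B := by positivity
  have hBr : (0 : ℝ) < B := by exact_mod_cast hB0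
  set K₁ : ℕ := 20 * (K + 1) ^ 2 * 24 with hK₁
  obtain ⟨y₀, hy₀⟩ := eventually_atTop.1 (ev_rpow_le (a := 1 - γ) (b := 1)
    (K := (K₁ : ℝ) ^ (1 - γ)) (c := 1 / (2 * B)) (by linarith) (by positivity))
  set c : ℝ := ca / (128 * (K + 1)) with hc
  have hc0 : 0 < c := by positivity
  set a₁ : ℝ := 2 * Ca + 1 with ha₁
  set a₂ : ℝ := 2 * (20 * (Real.log q + 1) + 1) with ha₂
  refine ⟨c, (a₁ + a₂) / c + 2 * (y₀ + B), hc0, by positivity, fun Λ _ _ s ℓ cn hℓ => ?_⟩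
  obtain ⟨-, -, -, E4⟩ := hE q Λ s.Ω s.gap.1
  set n : ℝ := (Fintype.card Λ : ℝ) with hn
  have hn0 : 0 ≤ n := by positivity
  set L : ℝ := Real.log (n + 2) with hL
  have hL2 : 1 / 2 ≤ L := by
    have h1 := Real.log_two_gt_d9
    have h2 : Real.log 2 ≤ L := Real.log_le_log (by norm_num) (by linarith)
    linarith
  have hexp : Real.exp L = n + 2 := Real.exp_log (by linarith)
  have p1 : 0 ≤ (a₁ + a₂) / c * L := by positivity
  have p2 : (0 : ℝ) ≤ y₀ := by positivity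
  have p3 : (y₀ : ℝ) + B ≤ 2 * (y₀ + B) * L := by
    have := mul_le_mul_of_nonneg_left hL2 (add_nonneg p2 hBr.le)
    linarith
  have l1 : (a₁ + a₂) * L ≤ c * ℓ := by
    have : (a₁ + a₂) / c * L ≤ ℓ := by linarith
    rw [div_mul_eq_mul_div, div_le_iff₀ hc0] at this
    linarith
  have l2 : y₀ + B ≤ ℓ := by
    have : (y₀ : ℝ) + B ≤ ℓ := by linarith
    exact_mod_cast this
  have q1 : 0 ≤ a₁ * L := by positivity
  have q2 : 0 ≤ a₂ * L := by positivity
  have b1 : Ca * (n + 1) ≤ Real.exp (c * ℓ) := by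
    have h1 := Real.add_one_le_exp Ca
    calc Ca * (n + 1) ≤ Real.exp Ca * Real.exp L := by
          rw [hexp]; gcongr <;> linarith
      _ = Real.exp (Ca + L) := (Real.exp_add _ _).symm
      _ ≤ _ := Real.exp_le_exp.2 (by
          have := mul_le_mul_of_nonneg_left hL2 hCa.le
          have : a₁ * L = 2 * (Ca * L) + L := by rw [ha₁]; ring
          linarith)
  have b2 : 10 * (n * Real.log q + 1) ≤ Real.exp (c * ℓ / 2) := by
    have h1 := Real.add_one_le_exp (10 * (Real.log q + 1))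
    calc 10 * (n * Real.log q + 1) ≤ 10 * (Real.log q + 1) * (n + 2) := by linarith
      _ ≤ Real.exp (10 * (Real.log q + 1)) * Real.exp L := by
          rw [hexp]; gcongr; linarith
      _ = Real.exp (10 * (Real.log q + 1) + L) := (Real.exp_add _ _).symm
      _ ≤ _ := Real.exp_le_exp.2 (by
          have := mul_le_mul_of_nonneg_left hL2 (add_nonneg hlq zero_le_one)
          have : a₂ * L = 40 * ((Real.log q + 1) * L) + 2 * L := by rw [ha₂]; ring
          linarith)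
  set μ : ℕ := ℓ / B with hμ
  have hμ1 : 1 ≤ μ := (Nat.le_div_iff_mul_le hB0).2 (by omega)
  have hμ2 : B * μ ≤ ℓ := Nat.mul_div_le ℓ B
  have hμ3 : ℓ ≤ 2 * (B * μ) := by
    have h1 := Nat.lt_div_mul_add (a := ℓ) (b := B) hB0
    have h2 : B ≤ B * μ := Nat.le_mul_of_pos_right B hμ1
    rw [← hμ, mul_comm] at h1
    omega
  have hμ4 : (ℓ : ℝ) ≤ 2 * (B * μ) := by exact_mod_cast hμ3
  refine multi s cn (Ent.of hE s.gap.1) N μ C₀ CA ca _ hCA.le hN1 hμ1 hμ2 (hAr Λ s)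
    (fun k hk ch => ?_) hN (fun A F A' F' w hw hd h1 h2 h3 => ?_) (fun A F hd h => ?_)
  · have e1 : 20 * (K + 1) ^ 2 * (12 * (2 * (k * ℓ))) = K₁ * (k * ℓ) := by rw [hK₁]; ring
    have hy : ℓ ≤ k * ℓ := Nat.le_mul_of_pos_left ℓ hk
    have h1 : 1 ≤ 20 * (K + 1) ^ 2 * (12 * (2 * (k * ℓ))) :=
      Nat.mul_pos (by positivity) (by omega)
    have h2 : ((20 * (K + 1) ^ 2 * (12 * (2 * (k * ℓ))) : ℕ) : ℝ) ^ (1 - γ) ≤ (k * μ : ℕ) := by
      have h3 := hy₀ (k * ℓ) (by omega)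
      rw [e1, Nat.cast_mul, Real.mul_rpow (by positivity) (by positivity)]
      refine h3.trans ?_
      rw [Real.rpow_one, one_div, inv_mul_le_iff₀ (by positivity)]
      push_cast
      have := mul_le_mul_of_nonneg_left hμ4 (Nat.cast_nonneg (α := ℝ) k)
      linarith
    refine (hC Λ s _ _ ch h1 h2).trans (mul_le_mul_of_nonneg_left (le_trans ?_ h2) hC₀.le)
    exact Real.rpow_le_rpow_of_exponent_le (by exact_mod_cast h1) (by linarith)
  · refine exch_le (hA Λ s A F A' F' w _ hd h1 h2 h3) ?_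
    have h4 : (((A ∪ F)ᶜ).card : ℝ) ≤ n := Nat.cast_le.2 (Finset.card_le_univ _)
    have h5 : (N : ℝ) * μ ≤ w := by exact_mod_cast hw
    have h6 : c * ℓ * 4 ≤ ca * w := by
      have e1 : (B : ℝ) = 16 * (K + 1) * N := by rw [hB]; push_cast; ring
      rw [e1] at hμ4
      rw [hc, div_mul_eq_mul_div, div_mul_eq_mul_div, div_le_iff₀ (by positivity)]
      have h7 : (ℓ : ℝ) * 4 ≤ w * (128 * (K + 1)) := by
        have : (K + 1 : ℝ) * (N * μ) ≤ (K + 1) * w := by gcongr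
        linarith
      have := mul_le_mul_of_nonneg_left h7 hca.le
      linarith
    calc _ ≤ Ca * (n + 1) * Real.exp (ca / 2 * w - ca * w) := by gcongr
      _ ≤ Real.exp (c * ℓ) * Real.exp (ca / 2 * w - ca * w) := by gcongr
      _ = Real.exp (c * ℓ + (ca / 2 * w - ca * w)) := (Real.exp_add _ _).symm
      _ ≤ _ := Real.exp_le_exp.2 (by linarith)
  · refine (E4 A F _ hd (Real.exp_pos _).le h).trans ?_
    have h4 : (A.card : ℝ) ≤ n := Nat.cast_le.2 (Finset.card_le_univ _)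
    rw [← Real.exp_half]
    calc 10 * Real.exp (-(c * ℓ) / 2) * (A.card * Real.log q + 1)
        ≤ 10 * Real.exp (-(c * ℓ) / 2) * (n * Real.log q + 1) := by gcongr
      _ = 10 * (n * Real.log q + 1) * Real.exp (-(c * ℓ) / 2) := by ring
      _ ≤ Real.exp (c * ℓ / 2) * Real.exp (-(c * ℓ) / 2) := by gcongr
      _ = 1 := by rw [← Real.exp_add, show c * ℓ / 2 + -(c * ℓ) / 2 = 0 by ring, Real.exp_zero]

end Crest.Agent.N336.P
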