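import Crest.Agent.N336.P.VW.Geo

/-!
# Row 336, cone decoupling: the belt of tiles and one step of the multiscale induction (helper49)
-/

set_option autoImplicit false

namespace Crest.Agent.N336.P.VW

open Crest.MathPhysics.LatticeSpin

/-- Index of the tile of side `m` containing a point. -/
def idx (m : ℕ) (z : ℤ × ℤ) : ℤ × ℤ := (z.1 / m, z.2 / m)

theorem idx_eq {m : ℕ} (hm : 1 ≤ m) {z τ : ℤ × ℤ} : idx m z = τ ↔
    τ.1 * m ≤ z.1 ∧ z.1 < τ.1 * m + m ∧ τ.2 * m ≤ z.2 ∧ z.2 < τ.2 * m + m := by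
  have h0 : (0 : ℤ) < m := by exact_mod_cast hm
  have key : ∀ a k : ℤ, a / m = k ↔ k * m ≤ a ∧ a < k * m + m := fun a k => by
    rw [le_antisymm_iff, ← Int.lt_add_one_iff, Int.ediv_lt_iff_lt_mul h0,
      Int.le_ediv_iff_mul_le h0, add_mul, one_mul]
    tauto
  unfold idx
  rw [Prod.ext_iff, key, key]
  tauto

theorem sd_of_idx {m : ℕ} (hm : 1 ≤ m) {z w : ℤ × ℤ} (h : idx m z = idx m w) :
    sd z w ≤ (m - 1 : ℕ) := by
  have h1 := (idx_eq hm).1 h
  have h2 := (idx_eq hm).1 (rfl : idx m w = idx m w)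
  rw [sd_le]
  omega

/-- All points of the tiles with indices in `I`. -/
noncomputable def pts (m : ℕ) (I : Finset (ℤ × ℤ)) : Finset (ℤ × ℤ) :=
  I.biUnion fun τ => Finset.Ico (τ.1 * m) (τ.1 * m + m) ×ˢ Finset.Ico (τ.2 * m) (τ.2 * m + m)

theorem mem_pts {m : ℕ} (hm : 1 ≤ m) {I : Finset (ℤ × ℤ)} {z : ℤ × ℤ} :
    z ∈ pts m I ↔ idx m z ∈ I := by
  simp only [pts, Finset.mem_biUnion, Finset.mem_product, Finset.mem_Ico]
  constructor
  · rintro ⟨τ, h, h1⟩
    rwa [(idx_eq hm).2 (by tauto : τ.1 * m ≤ z.1 ∧ z.1 < τ.1 * m + m ∧ τ.2 * m ≤ z.2 ∧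
      z.2 < τ.2 * m + m)]
  · intro h
    have := (idx_eq hm).1 (rfl : idx m z = idx m z)
    exact ⟨_, h, by tauto⟩

theorem card_pts {m : ℕ} (hm : 1 ≤ m) (I : Finset (ℤ × ℤ)) : m * m * I.card ≤ (pts m I).card := by
  refine Finset.mul_card_image_le_card_of_maps_to (f := idx m) (fun z hz => (mem_pts hm).1 hz) _
    fun τ hτ => ?_
  have h : (Finset.Ico (τ.1 * m) (τ.1 * m + m) ×ˢ Finset.Ico (τ.2 * m) (τ.2 * m + m)).card =
      m * m := by simp
  rw [← h]
  refine Finset.card_le_card fun z hz => ?_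
  simp only [Finset.mem_product, Finset.mem_Ico] at hz
  have e : idx m z = τ := (idx_eq hm).2 (by tauto)
  exact Finset.mem_filter.2 ⟨(mem_pts hm).2 (e ▸ hτ), e⟩

variable {K ℓ : ℕ} (cn : Cone K ℓ)

/-- The corner sites of the belt of radius `r`. -/
def bad {Λ : Type} [Fintype Λ] (pos : Λ → ℤ × ℤ) (m t r : ℕ) : Finset Λ :=
  Finset.univ.filter fun a => (r : ℤ) - m ≤ cn.gam (pos a) ∧ cn.gam (pos a) < r ∧
    -(t : ℤ) ≤ u cn (pos a) ∧ u cn (pos a) < -t + (K + 1) * m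

/-- Some belt has boundedly many corner tiles. -/
theorem exists_belt {Λ : Type} [Fintype Λ] (pos : Λ → ℤ × ℤ) (m t ρ : ℕ) (hm : 1 ≤ m)
    (hf : t + (K + 2) * m ≤ ρ) : ∃ r : ℕ, ρ + m ≤ r ∧ r ≤ 4 * ρ + 7 * m ∧
      ((bad cn pos m t r).image fun a => idx m (pos a)).card ≤ 12 * (K + 1) * K := by
  set J : ℕ := ρ / m + 3 with hJ
  have hJ1 : ρ + 2 * m ≤ J * m := by
    have := Nat.lt_div_mul_add (a := ρ) (b := m) hm
    rw [hJ, add_mul]
    omega
  have hJ2 : J * m ≤ ρ + 3 * m := by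
    have := Nat.div_mul_le_self ρ m
    rw [hJ, add_mul]
    omega
  let I : ℕ → Finset (ℤ × ℤ) := fun i =>
    (bad cn pos m t (ρ + m + 3 * (i * m))).image fun a => idx m (pos a)
  have hQ : ∀ i, ∀ z ∈ pts m (I i), (ρ : ℤ) - m + 3 * (i * m : ℕ) < cn.gam z ∧
      cn.gam z < ρ + 2 * m + 3 * (i * m : ℕ) ∧ -(t : ℤ) - (K + 1) * m ≤ u cn z ∧
      u cn z < -t + 2 * ((K + 1) * m) := by
    intro i z hz
    obtain ⟨a, ha, e⟩ := Finset.mem_image.1 ((mem_pts hm).1 hz)
    have h1 := (Finset.mem_filter.1 ha).2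
    have h2 := sd_of_idx hm e
    have h3 := sd_of_idx hm e.symm
    have h4 := gam_lip cn z (pos a)
    have h5 := gam_lip cn (pos a) z
    have h6 := u_lip cn (n := m) (h2.trans (by omega))
    have h7 := u_lip cn (n := m) (h3.trans (by omega))
    push_cast at h1 ⊢
    omega
  have hd : ((Finset.range J : Finset ℕ) : Set ℕ).PairwiseDisjoint fun i => pts m (I i) := by
    intro i _ j _ hij
    refine Finset.disjoint_left.2 fun z h1 h2 => ?_
    have a1 := hQ i z h1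
    have a2 := hQ j z h2
    rcases lt_or_gt_of_ne hij with h | h
    · have := Nat.mul_le_mul_right m (Nat.succ_le_of_lt h)
      rw [Nat.succ_mul] at this
      omega
    · have := Nat.mul_le_mul_right m (Nat.succ_le_of_lt h)
      rw [Nat.succ_mul] at this
      omega
  have hw := card_window cn (ρ + 3 * (J * m)) (3 * ((K + 1) * m)) (-(t : ℤ) - (K + 1) * m)
    ((Finset.range J).biUnion fun i => pts m (I i)) fun z hz => by
      obtain ⟨i, hi, hz⟩ := Finset.mem_biUnion.1 hz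
      have a1 := hQ i z hz
      have a2 := Nat.mul_le_mul_right m (Nat.succ_le_of_lt (Finset.mem_range.1 hi))
      rw [Nat.succ_mul] at a2
      have a3 : (t : ℤ) + ((K + 1) * m + m) ≤ ρ := by
        have : (t : ℤ) + (K + 2) * m ≤ ρ := by exact_mod_cast hf
        linarith
      have a4 : cn.f z = u cn z + g cn z := by unfold u; ring
      have a5 : cn.gam z ≤ g cn z := le_max_left _ _
      have a6 : ((3 * ((K + 1) * m) : ℕ) : ℤ) = 3 * ((K + 1) * m) := by push_cast; ring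
      rw [a6]
      omega
  rw [Finset.card_biUnion hd] at hw
  have hs : ∑ i ∈ Finset.range J, m * m * (I i).card ≤
      ∑ _i ∈ Finset.range J, m * m * (12 * (K + 1) * K) := by
    refine (Finset.sum_le_sum fun i _ => card_pts hm (I i)).trans (hw.trans ?_)
    rw [Finset.sum_const, Finset.card_range, smul_eq_mul]
    calc _ ≤ 3 * ((K + 1) * m) * (K * (4 * (J * m))) := by gcongr; omega
      _ = _ := by ring
  obtain ⟨i, hi, h⟩ := Finset.exists_le_of_sum_le (s := Finset.range J)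
    ⟨0, Finset.mem_range.2 (Nat.succ_pos _)⟩ hs
  have a2 := Nat.mul_le_mul_right m (Nat.succ_le_of_lt (Finset.mem_range.1 hi))
  rw [Nat.succ_mul] at a2
  exact ⟨ρ + m + 3 * (i * m), by omega, by omega, Nat.le_of_mul_le_mul_left h (by positivity)⟩

/-- The part of the fattened cone region at distance at least `ρ`. -/
def RA {Λ : Type} [Fintype Λ] (pos : Λ → ℤ × ℤ) (ρ t : ℕ) : Finset Λ :=
  Finset.univ.filter fun a => -(t : ℤ) ≤ u cn (pos a) ∧ (ρ : ℤ) ≤ g cn (pos a)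

/-- The fattened far region. -/
def RF {Λ : Type} [Fintype Λ] (pos : Λ → ℤ × ℤ) (t : ℕ) : Finset Λ :=
  Finset.univ.filter fun a => cn.f (pos a) ≤ t

theorem mem_RA {Λ : Type} [Fintype Λ] {pos : Λ → ℤ × ℤ} {ρ t : ℕ} {a : Λ} :
    a ∈ RA cn pos ρ t ↔ -(t : ℤ) ≤ u cn (pos a) ∧ (ρ : ℤ) ≤ g cn (pos a) := by
  simp [RA]

theorem mem_RF {Λ : Type} [Fintype Λ] {pos : Λ → ℤ × ℤ} {t : ℕ} {a : Λ} :
    a ∈ RF cn pos t ↔ cn.f (pos a) ≤ t := by
  simp [RF]

theorem disj_RA {Λ : Type} [Fintype Λ] (pos : Λ → ℤ × ℤ) {ρ t : ℕ} (h : 2 * t < ρ) :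
    Disjoint (RA cn pos ρ t) (RF cn pos t) := by
  refine Finset.disjoint_left.2 fun a h1 h2 => ?_
  rw [mem_RA] at h1
  rw [mem_RF] at h2
  unfold u at h1
  omega

/-- One step: growing the region inwards from radius `ρ` to radius `b`. -/
theorem step {q R : ℕ} {J Δ : ℝ} {Λ : Type} [Fintype Λ] [DecidableEq Λ] (s : Sys q R J Δ Λ)
    (e : Ent s.Ω) (m t b ρ : ℕ) (κ CA : ℝ) (hCA : 0 ≤ CA)
    (harea : ∀ A, S s.Ω A ≤ CA * s.bd A)
    (hcore : ∀ c : Chart s (20 * (K + 1) ^ 2 * (12 * ρ)) m, MI s.Ω (c.P 0) (c.P m)ᶜ ≤ κ)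
    (hm : 1 ≤ m) (hb1 : b < ℓ ∨ ℓ + m < b) (hb2 : 2 * t + (K + 2) * m < b) (hb3 : b + m ≤ ρ)
    (hρ : ℓ + m < ρ) :
    MI s.Ω (RA cn s.pos b t) (RF cn s.pos t) ≤ MI s.Ω (RA cn s.pos ρ t) (RF cn s.pos t) + 2 * κ +
      2 * ((12 * (K + 1) * K : ℕ) * (CA * (4 * m : ℕ))) := by
  obtain ⟨r, hr1, hr2, hI⟩ := exists_belt cn s.pos m t ρ hm (by omega)
  set I := (bad cn s.pos m t r).image fun a => idx m (s.pos a) with hIdef
  have z2 : 2 * (t : ℤ) + ((K + 1) * m + m) < b := by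
    have : 2 * (t : ℤ) + (K + 2) * m < b := by exact_mod_cast hb2
    linarith
  have z3 : (0 : ℤ) ≤ (K + 1) * m := by positivity
  let D : Finset Λ := I.biUnion fun τ => sq s.pos (τ.1 * m) (τ.2 * m) m
  have hD : ∀ a, a ∈ D ↔ idx m (s.pos a) ∈ I := fun a => by
    simp only [D, Finset.mem_biUnion, mem_sq, ← idx_eq hm, exists_eq_right']
  have hSD : S s.Ω D ≤ (12 * (K + 1) * K : ℕ) * (CA * (4 * m : ℕ)) := by
    refine (e.biUnion_le I _ (CA * (4 * m : ℕ)) fun τ _ => (harea _).trans ?_).trans ?_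
    · gcongr
      exact bd_sq_le s _ _ m
    · gcongr
  let cX := chart cn s b (-t) (r - m - 1) m (12 * ρ) (by omega) (by omega) (by omega)
  let cB := chart cn s (r - m) (-t + (K + 1) * m) (r - 1) m (12 * ρ) (by omega) (by omega)
    (by omega)
  have mX : ∀ a k, a ∈ cX.P k ↔ cn.gam (s.pos a) ≤ r - m - 1 + k ∧
      b - k ≤ g cn (s.pos a) ∧ -t - (K + 1) * k ≤ u cn (s.pos a) := fun a k => by
    rw [mem_chart]
    have : ((r - m - 1 : ℕ) : ℤ) = r - m - 1 := by omega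
    rw [this]
  have mB : ∀ a k, a ∈ cB.P k ↔ cn.gam (s.pos a) ≤ r - 1 + k ∧
      r - m - k ≤ g cn (s.pos a) ∧ -t + (K + 1) * m - (K + 1) * k ≤ u cn (s.pos a) := fun a k => by
    rw [mem_chart]
    have : ((r - 1 : ℕ) : ℤ) = r - 1 := by omega
    rw [this]
  have hg : ∀ z, g cn z = max (cn.gam z) ℓ := fun _ => rfl
  have hu : ∀ z, u cn z = cn.f z - g cn z := fun _ => rfl
  have key := e.two_family' (F := RF cn s.pos t) (A' := RA cn s.pos b t) (A := RA cn s.pos r t)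
    (X := cX.P 0) (B := cB.P 0) (D := D) ?_ ?_ ?_ ?_ ?_ ?_ ?_ (disj_RA cn _ (by omega)) ?_
  · have k1 : MI s.Ω (RA cn s.pos r t) (RF cn s.pos t) ≤
        MI s.Ω (RA cn s.pos ρ t) (RF cn s.pos t) := by
      refine e.MI_mono_left (fun a ha => ?_) (disj_RA cn _ (by omega))
      rw [mem_RA] at ha ⊢
      omega
    have k2 : MI s.Ω (cX.P 0) (RF cn s.pos t ∪ RA cn s.pos r t) ≤ κ := by
      refine le_trans (e.MI_mono subset_rfl (fun a ha => Finset.mem_compl.2 fun h => ?_)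
        (Finset.disjoint_left.2 fun a h h' => Finset.mem_compl.1 h'
          (cX.P_mono (by omega) h))) (hcore cX)
      rw [mX] at h
      have := hg (s.pos a)
      have := hu (s.pos a)
      rw [Finset.mem_union, mem_RA, mem_RF] at ha
      omega
    have k3 : MI s.Ω (cB.P 0) (RA cn s.pos b t)ᶜ ≤ κ := by
      refine le_trans (e.MI_mono subset_rfl (Finset.compl_subset_compl.2 fun a h => ?_)
        (Finset.disjoint_left.2 fun a h h' => Finset.mem_compl.1 h'
          (cB.P_mono (by omega) h))) (hcore cB)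
      rw [mB] at h
      rw [mem_RA]
      omega
    linarith
  · intro a ha
    rw [mem_RA] at ha
    simp only [Finset.mem_union, mem_RA, mX, mB, mul_zero, sub_zero, add_zero]
    have := hg (s.pos a)
    by_cases hb : a ∈ bad cn s.pos m t r
    · exact Or.inr ((hD a).2 (Finset.mem_image_of_mem _ hb))
    · left
      simp only [bad, Finset.mem_filter, Finset.mem_univ, true_and] at hb
      omega
  · intro a ha
    rw [mem_RA] at ha ⊢
    omega
  · intro a ha
    rw [mX] at ha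
    rw [mem_RA]
    omega
  · intro a ha
    rw [mB] at ha
    rw [mem_RA]
    omega
  · refine Finset.disjoint_left.2 fun a h1 h2 => ?_
    rw [mem_RA] at h1
    rw [mX] at h2
    have := hg (s.pos a)
    omega
  · refine Finset.disjoint_left.2 fun a h1 h2 => ?_
    rw [mem_RA] at h1
    rw [mB] at h2
    have := hg (s.pos a)
    omega
  · refine Finset.disjoint_left.2 fun a h1 h2 => ?_
    rw [mX] at h1
    rw [mB] at h2
    have := hg (s.pos a)
    omega
  · refine Finset.disjoint_left.2 fun a h1 h2 => ?_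
    obtain ⟨a', ha', e'⟩ := Finset.mem_image.1 ((hD a).1 h1)
    have h3 := (Finset.mem_filter.1 ha').2
    have h4 := u_lip cn (n := m) ((sd_of_idx hm e').trans (by omega))
    have h5 := g_lip cn (n := m) ((sd_of_idx hm e').trans (by omega))
    rw [mem_RF] at h2
    have := hg (s.pos a')
    have := hu (s.pos a)
    omega

end Crest.Agent.N336.P.VW
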